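import Vale.Agent.P080.Bdl.B1
import Vale.Agent.P080.Bdl.B2

namespace Vale.Agent.Results.P080.C1a

open Vale.Agent.P080 Metric

/-- Interior `C^{1,α}` estimate for infinity-harmonic functions in every dimension, with `α` and
`C` depending only on the dimension, and continuous differentiability on open sets. -/
theorem result :
    (∀ d : ℕ, ∃ α : ℝ, 0 < α ∧ α < 1 ∧ ∃ C : ℝ, 0 < C ∧
      ∀ (u : EuclideanSpace ℝ (Fin d) → ℝ) (x₀ : EuclideanSpace ℝ (Fin d)) (R M : ℝ), 0 < R →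
        IsInfHarmonicOn u (ball x₀ R) → (∀ x ∈ ball x₀ R, ∀ y ∈ ball x₀ R, u x - u y ≤ M) →
        ContDiffOn ℝ 1 u (ball x₀ (R / 2)) ∧
        (∀ x ∈ ball x₀ (R / 2), ‖gradient u x‖ ≤ C * (M / R)) ∧
        (∀ x ∈ ball x₀ (R / 2), ∀ y ∈ ball x₀ (R / 2),
          ‖gradient u x - gradient u y‖ ≤ C * (M / R) * (‖x - y‖ / R) ^ α)) ∧
    ∀ (d : ℕ) (Ω : Set (EuclideanSpace ℝ (Fin d))) (u : EuclideanSpace ℝ (Fin d) → ℝ),
      IsOpen Ω → IsInfHarmonicOn u Ω → ContDiffOn ℝ 1 u Ω := by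
  have key : ∀ d : ℕ, ∃ α : ℝ, 0 < α ∧ α < 1 ∧ ∃ C : ℝ, 0 < C ∧
      Zy.FullEstimate (EuclideanSpace ℝ (Fin d)) α C := fun d =>
    Zy.fullEstimate (Zy.theoremZ (E := EuclideanSpace ℝ (Fin d)))
  refine ⟨fun d => ?_, fun d Ω u hΩ hu => ?_⟩
  · obtain ⟨α, h0, h1, C, hC, h⟩ := key d
    exact ⟨α, h0, h1, C, hC, h⟩
  · obtain ⟨α, h0, h1, C, hC, h⟩ := key d
    exact Zy.contDiffOn_open (fun u x₀ R M hR hu hM => (h u x₀ R M hR hu hM).1) hΩ hu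

end Vale.Agent.Results.P080.C1a
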